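import Vale.Agent.P217.Honda

/-!
Agreement of power series below a degree, and cancellation of logarithms.
-/

noncomputable section

open MvPowerSeries Finset

namespace Vale.Agent.P217.Psi

variable {R : Type*} [CommRing R] {σ τ : Type*}

/-- Agreement in degrees below `N`. -/
def Agree (N : ℕ) (f g : MvPowerSeries τ R) : Prop :=
  ∀ d : τ →₀ ℕ, d.degree < N → coeff d f = coeff d g

theorem Agree.refl (N : ℕ) (f : MvPowerSeries τ R) : Agree N f f := fun _ _ ↦ rfl

theorem Agree.symm {N : ℕ} {f g : MvPowerSeries τ R} (h : Agree N f g) : Agree N g f :=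
  fun d hd ↦ (h d hd).symm

theorem Agree.trans {N : ℕ} {f g k : MvPowerSeries τ R} (h : Agree N f g) (h' : Agree N g k) :
    Agree N f k :=
  fun d hd ↦ (h d hd).trans (h' d hd)

theorem Agree.mono {N M : ℕ} {f g : MvPowerSeries τ R} (h : Agree N f g) (hMN : M ≤ N) :
    Agree M f g :=
  fun d hd ↦ h d (lt_of_lt_of_le hd hMN)

theorem Agree.add {N : ℕ} {f g f' g' : MvPowerSeries τ R} (h : Agree N f g)
    (h' : Agree N f' g') : Agree N (f + f') (g + g') := fun d hd ↦ by
  rw [map_add, map_add, h d hd, h' d hd]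

theorem Agree.map {S : Type*} [CommRing S] (e : R →+* S) {N : ℕ} {f g : MvPowerSeries τ R}
    (h : Agree N f g) : Agree N (MvPowerSeries.map e f) (MvPowerSeries.map e g) := fun d hd ↦ by
  rw [MvPowerSeries.coeff_map, MvPowerSeries.coeff_map, h d hd]

theorem Agree.of_map {S : Type*} [CommRing S] {e : R →+* S} (he : Function.Injective e)
    {N : ℕ} {f g : MvPowerSeries τ R}
    (h : Agree N (MvPowerSeries.map e f) (MvPowerSeries.map e g)) : Agree N f g := fun d hd ↦
  he (by simpa [MvPowerSeries.coeff_map] using h d hd)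

theorem eq_of_agree {f g : MvPowerSeries τ R} (h : ∀ N, ∃ M ≥ N, Agree M f g) : f = g := by
  refine MvPowerSeries.ext fun d ↦ ?_
  obtain ⟨M, hM, hfg⟩ := h (d.degree + 1)
  exact hfg d (by omega)

variable (τ R) in
/-- The series vanishing below degree `N`. -/
def lowIdeal (N : ℕ) : Ideal (MvPowerSeries τ R) where
  carrier := {f | ∀ d : τ →₀ ℕ, d.degree < N → coeff d f = 0}
  add_mem' {f g} hf hg d hd := by rw [map_add, hf d hd, hg d hd, add_zero]
  zero_mem' d _ := map_zero _
  smul_mem' c f hf d hd := by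
    classical
    rw [smul_eq_mul, MvPowerSeries.coeff_mul]
    refine sum_eq_zero fun q hq ↦ ?_
    have h : q.1.degree + q.2.degree = d.degree := by rw [← map_add, mem_antidiagonal.mp hq]
    rw [hf q.2 (by omega), mul_zero]

theorem agree_iff {N : ℕ} {f g : MvPowerSeries τ R} :
    Agree N f g ↔ f - g ∈ lowIdeal R τ N :=
  ⟨fun h d hd ↦ by rw [map_sub, h d hd, sub_self],
    fun h d hd ↦ sub_eq_zero.mp (by rw [← map_sub]; exact h d hd)⟩

theorem Agree.pow {N : ℕ} {f g : MvPowerSeries τ R} (h : Agree N f g) (k : ℕ) :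
    Agree N (f ^ k) (g ^ k) := by
  rw [agree_iff, ← Ideal.Quotient.eq, map_pow, map_pow, Ideal.Quotient.eq.mpr (agree_iff.mp h)]

theorem subst_agree_arg [Finite σ] {b b' : σ → MvPowerSeries τ R}
    (hb : ∀ i, constantCoeff (b i) = 0) (hb' : ∀ i, constantCoeff (b' i) = 0) {N : ℕ}
    (h : ∀ i, Agree N (b i) (b' i)) (f : MvPowerSeries σ R) :
    Agree N (MvPowerSeries.subst b f) (MvPowerSeries.subst b' f) := by
  intro d hd
  rw [coeff_subst (hasSubst_of_constantCoeff_zero hb),
    coeff_subst (hasSubst_of_constantCoeff_zero hb')]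
  refine finsum_congr fun e ↦ ?_
  congr 1
  refine agree_iff.mpr ?_ d hd
  rw [← Ideal.Quotient.eq]
  simp only [Finsupp.prod, map_prod, map_pow]
  exact prod_congr rfl fun i _ ↦ by rw [Ideal.Quotient.eq.mpr (agree_iff.mp (h i))]

theorem subst_agree_series [Finite σ] {b : σ → MvPowerSeries τ R}
    (hb : ∀ i, constantCoeff (b i) = 0) {N : ℕ} {f g : MvPowerSeries σ R} (h : Agree N f g) :
    Agree N (MvPowerSeries.subst b f) (MvPowerSeries.subst b g) := by
  intro d hd
  rw [coeff_subst (hasSubst_of_constantCoeff_zero hb),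
    coeff_subst (hasSubst_of_constantCoeff_zero hb)]
  refine finsum_congr fun e ↦ ?_
  rcases Nat.lt_or_ge e.degree N with he | he
  · rw [h e he]
  · have h1 : ((e.degree * 1 : ℕ) : ℕ∞) ≤ (e.prod fun s k ↦ b s ^ k).order :=
      le_order_prod_pow (fun i ↦ one_le_order (hb i)) e
    have h2 : coeff d (e.prod fun s k ↦ b s ^ k) = 0 := by
      refine coeff_of_lt_order (lt_of_lt_of_le ?_ h1)
      rw [mul_one]
      exact_mod_cast lt_of_lt_of_le hd he
    rw [h2, smul_zero, smul_zero]

theorem ps_subst_agree_arg {a a' : MvPowerSeries τ R} (ha : constantCoeff a = 0)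
    (ha' : constantCoeff a' = 0) {N : ℕ} (h : Agree N a a') (f : PowerSeries R) :
    Agree N (PowerSeries.subst a f) (PowerSeries.subst a' f) :=
  subst_agree_arg (σ := Unit) (fun _ ↦ ha) (fun _ ↦ ha') (fun _ ↦ h) f

theorem ps_subst_agree_series {a : MvPowerSeries τ R} (ha : constantCoeff a = 0) {N : ℕ}
    {f g : PowerSeries R} (h : Agree (τ := Unit) N f g) :
    Agree N (PowerSeries.subst a f) (PowerSeries.subst a g) :=
  subst_agree_series (σ := Unit) (fun _ ↦ ha) h

theorem unit_degree (d : Unit →₀ ℕ) : d.degree = d () := by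
  rw [Finsupp.degree_apply]
  exact (sum_subset (subset_univ _) (by simp)).trans (by simp)

/-- A logarithm can be cancelled below any degree. -/
theorem log_cancel {p : ℕ} [hp : Fact p.Prime] {K : Type*} [Field K] {L : PowerSeries K}
    (h0 : PowerSeries.constantCoeff L = 0) (h1 : PowerSeries.coeff 1 L = 1)
    (htyp : ∀ m, (∀ k, m ≠ p ^ k) → PowerSeries.coeff m L = 0)
    {a b : MvPowerSeries τ K} (ha : constantCoeff a = 0) (hb : constantCoeff b = 0) {N : ℕ}
    (h : Agree N (PowerSeries.subst a L) (PowerSeries.subst b L)) : Agree N a b := by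
  suffices key : ∀ m, m < N → ∀ d : τ →₀ ℕ, d.degree = m → coeff d a = coeff d b from
    fun d hd ↦ key d.degree hd d rfl
  intro m
  induction m using Nat.strong_induction_on with
  | _ m ih =>
    intro hm d hd
    have hc := h d (by omega)
    rw [FESetting.coeff_subst_eq_sum (p := p) L h0 htyp ha le_rfl,
      FESetting.coeff_subst_eq_sum (p := p) L h0 htyp hb le_rfl, sum_range_succ',
      sum_range_succ'] at hc
    have hrest : ∀ k ∈ range d.degree,
        PowerSeries.coeff (p ^ (k + 1)) L * coeff d (a ^ p ^ (k + 1)) =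
          PowerSeries.coeff (p ^ (k + 1)) L * coeff d (b ^ p ^ (k + 1)) := fun k _ ↦ by
      congr 1
      exact FESetting.coeff_pow_congr ha hb
        (fun e he ↦ ih e.degree (by omega) (by omega) e rfl)
        (hp.out.two_le.trans (Nat.le_self_pow (Nat.succ_ne_zero k) p)) d le_rfl
    rw [sum_congr rfl hrest, add_right_inj] at hc
    simpa [h1] using hc

end Vale.Agent.P217.Psi
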