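import Vale.Agent.P217.LTUniv

/-!
The shape of the universal equations in the coordinate `b m`, and modulo `p` in the coordinate
`t j` at parameters of height at least `h`.
-/

noncomputable section

open Finset MvPolynomial

namespace Vale.Agent.P217.Psi

open Vale.Agent.P217.LT

variable {R : Type*} [CommRing R]

/-- Evaluation of the universal ring at sequences. -/
def chi (u b t : ℕ → R) : U →+* R :=
  MvPolynomial.eval₂Hom (Int.castRingHom R) fun
    | .u i => u i
    | .b i => b i
    | .t j => t j

@[simp] theorem chi_u (u b t : ℕ → R) (i : ℕ) : chi u b t (uV i) = u i := by simp [chi]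
@[simp] theorem chi_b (u b t : ℕ → R) (i : ℕ) : chi u b t (bV i) = b i := by simp [chi]
@[simp] theorem chi_t (u b t : ℕ → R) (i : ℕ) : chi u b t (tV i) = t i := by simp [chi]

theorem map_chi {S : Type*} [CommRing S] (e : R →+* S) (u b t : ℕ → R) (a : U) :
    e (chi u b t a) = chi (fun i ↦ e (u i)) (fun i ↦ e (b i)) (fun i ↦ e (t i)) a := by
  suffices h : e.comp (chi u b t) =
      chi (fun i ↦ e (u i)) (fun i ↦ e (b i)) (fun i ↦ e (t i)) from RingHom.congr_fun h a
  apply MvPolynomial.ringHom_ext
  · intro; simp [chi]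
  · rintro (i | i | i) <;> simp [chi]

/-- The truncation of a sequence. -/
def trunc (m : ℕ) (x : ℕ → R) : ℕ → R := fun i ↦ if i < m then x i else 0

/-- Kill the low parameters. -/
def killLow (h : ℕ) : U →+* U :=
  MvPolynomial.eval₂Hom (Int.castRingHom U) fun
    | .u i => if 0 < i ∧ i < h then 0 else uV i
    | .b i => if 0 < i ∧ i < h then 0 else bV i
    | .t j => tV j

/-- Kill the coordinates from `j` on. -/
def killT (j : ℕ) : U →+* U :=
  MvPolynomial.eval₂Hom (Int.castRingHom U) fun
    | .u i => uV i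
    | .b i => bV i
    | .t l => if l < j then tV l else 0

/-- Kill the targets from `m` on. -/
def killB (m : ℕ) : U →+* U :=
  MvPolynomial.eval₂Hom (Int.castRingHom U) fun
    | .u i => uV i
    | .b i => if i < m then bV i else 0
    | .t l => tV l

theorem chi_killT (u b t : ℕ → R) (j : ℕ) (a : U) :
    chi u b t (killT j a) = chi u b (trunc j t) a := by
  suffices h : (chi u b t).comp (killT j) = chi u b (trunc j t) from RingHom.congr_fun h a
  apply MvPolynomial.ringHom_ext
  · intro; simp
  · rintro (i | i | i) <;> simp only [RingHom.comp_apply, killT, chi, trunc, eval₂Hom_X'] <;>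
      split_ifs <;> simp

theorem chi_killB (u b t : ℕ → R) (m : ℕ) (a : U) :
    chi u b t (killB m a) = chi u (trunc m b) t a := by
  suffices h : (chi u b t).comp (killB m) = chi u (trunc m b) t from RingHom.congr_fun h a
  apply MvPolynomial.ringHom_ext
  · intro; simp
  · rintro (i | i | i) <;> simp only [RingHom.comp_apply, killB, chi, trunc, eval₂Hom_X'] <;>
      split_ifs <;> simp

theorem chi_killLow {u b : ℕ → R} (t : ℕ → R) {h : ℕ} (hu : ∀ i, 0 < i → i < h → u i = 0)
    (hb : ∀ i, 0 < i → i < h → b i = 0) (a : U) : chi u b t (killLow h a) = chi u b t a := by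
  suffices h' : (chi u b t).comp (killLow h) = chi u b t from RingHom.congr_fun h' a
  apply MvPolynomial.ringHom_ext
  · intro; simp
  · rintro (i | i | i) <;> simp only [RingHom.comp_apply, killLow, chi, eval₂Hom_X'] <;>
      split_ifs with hi <;> simp
    · exact (hu i hi.1 hi.2).symm
    · exact (hb i hi.1 hi.2).symm

variable (p : ℕ) [hp : Fact p.Prime]

omit hp in
theorem map_Lz_fixed (f : U →+* U) (hf : ∀ i, f (uV i) = uV i) (k : ℕ) :
    f (Lz p k) = Lz p k := by
  induction k using Nat.strong_induction_on with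
  | _ k ih =>
    rcases k with _ | k
    · rw [Lz_zero, map_one]
    · rw [Lz_succ, map_sum]
      refine sum_congr rfl fun i hi ↦ ?_
      have := mem_range.mp hi
      rw [map_mul, map_mul, map_pow, map_natCast, map_pow, hf, ih _ (by omega)]

omit hp in
theorem map_zseq_fixed (f : U →+* U) (hf : ∀ i, f (uV i) = uV i) (k : ℕ) (a : U) (m : ℕ) :
    f (zseq p k a m) = zseq p k (f a) m := by
  rw [zseq, zseq]
  split_ifs
  · rw [map_mul, map_mul, map_pow, map_natCast, map_pow, map_Lz_fixed p f hf]
  · exact map_zero _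

theorem eU_zero : eU p 0 = 0 := by
  have h := eU_spec p 0
  rw [wU, if_pos rfl, sum_range_one, zseq_self, pow_zero, one_mul] at h
  exact h.symm

/-- The equation of index `m` is linear in `b m`. -/
theorem eU_killB {m : ℕ} (hm : m ≠ 0) :
    eU p m = killB m (eU p m) - tV 0 * bV m := by
  have hfix : ∀ i, killB m (uV i) = uV i := fun i ↦ by simp [killB]
  have ht : ∀ i, killB m (tV i) = tV i := fun i ↦ by simp [killB]
  have hSU : ∀ l, killB m (SU p l) = SU p l := fun l ↦ by
    rw [SU, map_sum]
    exact sum_congr rfl fun j _ ↦ by rw [map_zseq_fixed p _ hfix, ht]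
  have hb : ∀ i < m, killB m (bV i) = bV i := fun i hi ↦ by simp [killB, hi]
  have hw : ∀ l < m, killB m (wU p l) = wU p l := by
    intro l hl
    rw [wU]
    split_ifs
    · exact map_zero _
    · rw [map_sub, map_mul, map_natCast, hSU, map_sum]
      congr 1
      refine sum_congr rfl fun i hi ↦ ?_
      have := mem_range.mp hi
      rw [map_mul, map_mul, map_pow, map_natCast, hSU, map_pow, hb _ (by omega)]
  have he : ∀ l < m, killB m (eU p l) = eU p l := by
    intro l
    induction l using Nat.strong_induction_on with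
    | _ l ih =>
      intro hl
      have h := congr_arg (killB m) (eU_spec p l)
      have hs : ∀ k ∈ range l, killB m (zseq p k (eU p k) l) = zseq p k (eU p k) l := fun k hk ↦ by
        rw [map_zseq_fixed p _ hfix, ih k (mem_range.mp hk) (by have := mem_range.mp hk; omega)]
      rw [hw l hl, map_sum, sum_range_succ, eU_spec p l, sum_range_succ, sum_congr rfl hs,
        map_zseq_fixed p _ hfix, zseq_self, zseq_self, add_right_inj] at h
      exact (mul_left_cancel₀ (pow_ne_zero _ (p_ne_zero_U p)) h).symm
  apply mul_left_cancel₀ (pow_ne_zero m (p_ne_zero_U p))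
  have h1 := eU_spec p m
  rw [sum_range_succ, zseq_self] at h1
  have h2 := congr_arg (killB m) h1
  have hs : ∀ k ∈ range m, killB m (zseq p k (eU p k) m) = zseq p k (eU p k) m := fun k hk ↦ by
    rw [map_zseq_fixed p _ hfix, he k (mem_range.mp hk)]
  rw [map_add, map_sum, sum_congr rfl hs, map_mul, map_pow, map_natCast] at h2
  have hlast : killB m (wU p m) = wU p m + (p : U) ^ m * (tV 0 * bV m) := by
    rw [wU, if_neg hm, map_sub, map_mul, map_natCast, hSU, map_sum]
    obtain ⟨l, rfl⟩ : ∃ l, m = l + 1 := ⟨m - 1, by omega⟩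
    rw [sum_range_succ, sum_range_succ]
    have hz : SU p 0 = tV 0 := by simp [SU, zseq_self]
    have hlow : ∀ i ∈ range l, killB (l + 1)
        ((p : U) ^ (i + 1) * SU p (l + 1 - (i + 1)) * bV (i + 1) ^ p ^ (l + 1 - (i + 1))) =
        (p : U) ^ (i + 1) * SU p (l + 1 - (i + 1)) * bV (i + 1) ^ p ^ (l + 1 - (i + 1)) := by
      intro i hi
      have := mem_range.mp hi
      rw [map_mul, map_mul, map_pow, map_natCast, hSU, map_pow, hb _ (by omega)]
    rw [sum_congr rfl hlow, map_mul, map_mul, map_pow, map_natCast, hSU, map_pow, Nat.sub_self, hz]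
    simp only [killB, eval₂Hom_X', lt_irrefl, if_false, pow_zero, pow_one]
    ring
  linear_combination -h1 + h2 - hlast

/-- The correction at the pivotal index. -/
def pivot (h j k : ℕ) : U :=
  if k = h + j then killLow h (AV p (h - 1) j - BV p (h - 1) j) else 0

omit hp in
theorem dvd_zseq_sub {a a' : U} {k m : ℕ} (hk : k ≤ m) (ha : (p : U) ∣ a - a') (L : U) :
    (p : U) ^ (m + 1) ∣ (p : U) ^ k * L * a ^ p ^ (m - k) - (p : U) ^ k * L * a' ^ p ^ (m - k) := by
  rw [← mul_sub, show m + 1 = k + (m - k + 1) by omega, pow_add, mul_assoc]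
  exact mul_dvd_mul_left _ ((dvd_sub_pow_of_dvd_sub ha _).mul_left L)

omit hp in
theorem dvd_map_zseq_sub (f : U →+* U) {a a' : U} {k m : ℕ} (hk : k ≤ m)
    (ha : (p : U) ∣ f a - f a') :
    (p : U) ^ (m + 1) ∣ f (zseq p k a m) - f (zseq p k a' m) := by
  rw [zseq, zseq, if_pos hk, if_pos hk, map_mul f, map_mul f, map_pow f (p : U),
    map_pow f a, map_mul f, map_mul f, map_pow f (p : U), map_pow f a', map_natCast]
  exact dvd_zseq_sub p hk ha _

theorem killLow_term {h : ℕ} (hh : 0 < h) {j k : ℕ} (hk : k ≤ h + j) (i l : ℕ) :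
    (p : U) ^ (k + 1) ∣
        (killLow h (zseq p (i + l + 1) (AV p i l) k - zseq p (i + l + 1) (BV p i l) k) -
          killLow h (killT j (zseq p (i + l + 1) (AV p i l) k - zseq p (i + l + 1) (BV p i l) k))) -
        (p : U) ^ k * (if i = h - 1 ∧ l = j then pivot p h j k else 0) := by
  have hsu : ∀ i, killT j (uV i) = uV i := fun i ↦ by simp [killT]
  set f := killLow h with hf
  set s := killT j with hs
  by_cases hle : i + l + 1 ≤ k
  swap
  · rw [zseq_of_lt p (by omega), zseq_of_lt p (by omega)]
    split_ifs with hc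
    · rw [pivot, if_neg (by omega)]
      simp
    · simp
  by_cases hi : i + 1 < h
  · have hA : f (AV p i l) = 0 := by
      rw [map_mul]
      simp [hf, killLow, hi]
    have hB : f (BV p i l) = 0 := by
      rw [map_mul, map_pow f (bV (i + 1))]
      simp [hf, killLow, hi, zero_pow (pow_ne_zero l hp.out.ne_zero)]
    have hA' : f (s (AV p i l)) = 0 := by
      rw [map_mul s, map_mul f, hsu]
      simp [hf, killLow, hi]
    have hB' : f (s (BV p i l)) = 0 := by
      rw [map_mul s, map_mul f, map_pow s (bV (i + 1)), map_pow f]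
      simp [hf, hs, killT, killLow, hi, zero_pow (pow_ne_zero l hp.out.ne_zero)]
    rw [map_zseq_fixed p s hsu (i + l + 1) (AV p i l) k |> fun e ↦ (map_sub s _ _).trans
      (by rw [e, map_zseq_fixed p s hsu (i + l + 1) (BV p i l) k])]
    rw [if_neg (show ¬ (i = h - 1 ∧ l = j) by omega)]
    simp only [map_sub, zseq, if_pos hle, map_mul f (_ * _), map_pow f, hA, hB, hA', hB']
    simp
  rcases Nat.lt_or_ge l j with hl | hl
  · have hA : s (AV p i l) = AV p i l := by simp [hs, killT, hl]
    have hB : s (BV p i l) = BV p i l := by simp [hs, killT, hl]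
    rw [map_sub s, map_zseq_fixed p s hsu, map_zseq_fixed p s hsu, hA, hB, sub_self,
      if_neg (by omega)]
    simp
  · obtain rfl : l = j := by omega
    obtain rfl : i = h - 1 := by omega
    obtain rfl : k = h + l := by omega
    have hA : s (AV p (h - 1) l) = 0 := by
      simp [hs, killT, zero_pow (pow_ne_zero _ hp.out.ne_zero)]
    have hB : s (BV p (h - 1) l) = 0 := by simp [hs, killT]
    rw [map_sub s, map_zseq_fixed p s hsu, map_zseq_fixed p s hsu, hA, hB, sub_self, map_zero,
      if_pos ⟨rfl, rfl⟩, pivot, if_pos rfl, ← hf, show h - 1 + l + 1 = h + l by omega,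
      zseq_self, zseq_self, sub_zero, ← mul_sub (_ : U), map_mul, map_pow, map_natCast,
      sub_self]
    exact dvd_zero _

theorem killLow_wU {h : ℕ} (hh : 0 < h) {j k : ℕ} (hk : k ≤ h + j) :
    (p : U) ^ (k + 1) ∣
      killLow h (wU p k) - killLow h (killT j (wU p k)) - (p : U) ^ k * pivot p h j k := by
  have hterm := killLow_term p hh hk
  set f := killLow h with hf
  set s := killT j with hs
  rw [wU_eq p k k le_rfl]
  have hts : (p : U) ^ (k + 1) ∣ f (tsingle p k) - f (s (tsingle p k)) := by
    rw [tsingle]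
    split_ifs
    · simp
    · simp only [map_mul, map_pow, map_natCast, ← mul_sub]
      exact Dvd.intro _ rfl
  have hsum2 : (p : U) ^ (k + 1) ∣ ∑ i ∈ range k, ∑ l ∈ range k,
      ((f (zseq p (i + l + 1) (AV p i l) k - zseq p (i + l + 1) (BV p i l) k) -
        f (s (zseq p (i + l + 1) (AV p i l) k - zseq p (i + l + 1) (BV p i l) k))) -
      (p : U) ^ k * (if i = h - 1 ∧ l = j then pivot p h j k else 0)) :=
    dvd_sum fun i _ ↦ dvd_sum fun l _ ↦ hterm i l
  have hpiv : ∑ i ∈ range k, ∑ l ∈ range k,
      (p : U) ^ k * (if i = h - 1 ∧ l = j then pivot p h j k else 0) =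
      (p : U) ^ k * pivot p h j k := by
    by_cases hc : k = h + j
    · rw [sum_eq_single (h - 1), sum_eq_single j]
      · simp
      · intro l _ hl; simp [hl]
      · intro hn; exact absurd (mem_range.mpr (by omega)) hn
      · intro i _ hi; exact sum_eq_zero fun l _ ↦ by simp [hi]
      · intro hn; exact absurd (mem_range.mpr (by omega)) hn
    · simp [pivot, hc]
  convert dvd_add hts hsum2 using 1
  simp only [map_add, map_sum, map_sub, sum_sub_distrib, hpiv]
  ring

theorem killLow_eU_congr {h : ℕ} (hh : 0 < h) (j : ℕ) : ∀ k ≤ h + j,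
    (p : U) ∣ killLow h (eU p k) - killLow h (killT j (eU p k)) - pivot p h j k := by
  intro k
  induction k using Nat.strong_induction_on with
  | _ k ih =>
    intro hk
    set f := killLow h with hf
    set s := killT j with hs
    have hsu : ∀ i, s (uV i) = uV i := fun i ↦ by simp [hs, killT]
    have hsum := killLow_wU p hh hk
    rw [← hf, ← hs] at hsum
    rw [eU_spec p k, sum_range_succ, zseq_self] at hsum
    have hlow : (p : U) ^ (k + 1) ∣
        ∑ l ∈ range k, (f (zseq p l (eU p l) k) - f (s (zseq p l (eU p l) k))) := by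
      refine dvd_sum fun l hl ↦ ?_
      have hl' := mem_range.mp hl
      have he := ih l hl' (by omega)
      rw [pivot, if_neg (by omega), sub_zero] at he
      rw [map_zseq_fixed p s hsu]
      exact dvd_map_zseq_sub p f hl'.le he
    have h3 : (p : U) ^ (k + 1) ∣
        (p : U) ^ k * (f (eU p k) - f (s (eU p k)) - pivot p h j k) := by
      convert dvd_sub hsum hlow using 1
      rw [map_add f, map_sum f, map_add s, map_sum s, map_add f, map_sum f, map_mul f,
        map_pow f (p : U), map_mul s, map_pow s (p : U), map_natCast s, map_mul f,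
        map_pow f (p : U), map_natCast f, sum_sub_distrib]
      ring
    rwa [pow_succ, mul_dvd_mul_iff_left (pow_ne_zero k (p_ne_zero_U p))] at h3

theorem killT_zero_eU (m : ℕ) : killT 0 (eU p m) = 0 := by
  have hsu : ∀ i, killT 0 (uV i) = uV i := fun i ↦ by simp [killT]
  induction m using Nat.strong_induction_on with
  | _ m ih =>
    have h := congr_arg (killT 0) (eU_spec p m)
    have hw : killT 0 (wU p m) = 0 := by
      have hSU : ∀ l, killT 0 (SU p l) = 0 := fun l ↦ by
        rw [SU, map_sum]
        refine sum_eq_zero fun j hj ↦ ?_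
        rw [map_zseq_fixed p _ hsu]
        simp [killT, zseq, zero_pow (pow_ne_zero _ hp.out.ne_zero)]
      rw [wU]
      split_ifs
      · exact map_zero _
      · simp [hSU]
    rw [hw, map_sum, sum_range_succ, sum_eq_zero (fun k hk ↦ by
      rw [map_zseq_fixed p _ hsu, ih k (mem_range.mp hk)]
      simp [zseq, zero_pow (pow_ne_zero _ hp.out.ne_zero)]), zero_add, map_zseq_fixed p _ hsu,
      zseq_self] at h
    exact (mul_eq_zero.mp h.symm).resolve_left (pow_ne_zero _ (p_ne_zero_U p))

/-- In characteristic `p` the equation `h + j` is `t^(p^h) - u^(p^j) t` plus earlier terms. -/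
theorem chi_eU_step {u b : ℕ → R} (t : ℕ → R) (hp0 : (p : R) = 0) {h : ℕ} (hh : 0 < h)
    (hu : ∀ i, 0 < i → i < h → u i = 0) (hb : ∀ i, 0 < i → i < h → b i = 0) (j : ℕ) :
    chi u b t (eU p (h + j)) = chi u b (trunc j t) (eU p (h + j)) +
      (u h * t j ^ p ^ h - t j * b h ^ p ^ j) := by
  obtain ⟨c, hc⟩ := killLow_eU_congr p hh j (h + j) le_rfl
  have h1 := congr_arg (chi u b t) hc
  rw [map_sub, map_sub, chi_killLow t hu hb, chi_killLow t hu hb, chi_killT, pivot, if_pos rfl,
    chi_killLow t hu hb, map_mul, map_natCast, hp0, zero_mul, sub_eq_zero] at h1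
  have hval : chi u b t (AV p (h - 1) j - BV p (h - 1) j) =
      u h * t j ^ p ^ h - t j * b h ^ p ^ j := by
    simp [show h - 1 + 1 = h by omega]
  rw [hval] at h1
  linear_combination h1

/-- In characteristic `p` the equations below `h` hold. -/
theorem chi_eU_low {u b : ℕ → R} (t : ℕ → R) (hp0 : (p : R) = 0) {h : ℕ}
    (hu : ∀ i, 0 < i → i < h → u i = 0) (hb : ∀ i, 0 < i → i < h → b i = 0) {m : ℕ} (hm : m < h) :
    chi u b t (eU p m) = 0 := by
  obtain ⟨c, hc⟩ := killLow_eU_congr p (by omega : 0 < h) 0 m (by omega)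
  have h1 := congr_arg (chi u b t) hc
  rw [pivot, if_neg (by omega), sub_zero, killT_zero_eU, map_zero, sub_zero,
    chi_killLow t hu hb, map_mul, map_natCast, hp0, zero_mul] at h1
  exact h1

end Vale.Agent.P217.Psi
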