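import Vale.Agent.P217.Psi.Theta

/-!
Over a field of characteristic `p` the equations make the formal sum a homomorphism: lift to
Witt vectors and compare logarithms.
-/

noncomputable section

open MvPowerSeries Finset

namespace Vale.Agent.P217.Psi

open Vale.Agent.P217.LT

section rec'

variable {R : Type*} [CommRing R]

/-- The sequence with term `m` equal to `g m` of the earlier terms. -/
def recSeq (g : ℕ → (ℕ → R) → R) : ℕ → R
  | m => g m fun i ↦ if i < m then recSeq g i else 0

theorem recSeq_eq (g : ℕ → (ℕ → R) → R) (m : ℕ) : recSeq g m = g m (trunc m (recSeq g)) := by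
  conv_lhs => rw [recSeq]
  rfl

end rec'

variable {p : ℕ} [hp : Fact p.Prime]

theorem map_zeroSpec {R S : Type*} [CommRing R] [CommRing S] (e : R →+* S) (h : ℕ) :
    e.comp (zeroSpec h R) = zeroSpec h S := by
  apply MvPolynomial.ringHom_ext <;> intro <;> simp [zeroSpec]

theorem map_honda {R S : Type*} [CommRing R] [CommRing S] (e : R →+* S) (h : ℕ) :
    MvPowerSeries.map e (honda p h R).toPowerSeries = (honda p h S).toPowerSeries := by
  rw [honda, honda, FormalGroup.map_toPowerSeries, FormalGroup.map_toPowerSeries,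
    ← RingHom.comp_apply, ← MvPowerSeries.map_comp, map_zeroSpec]

theorem uA_zero {n : ℕ} (hn : n ≠ 0) : Haz.uA n 0 = 0 := by simp [Haz.uA, Ne.symm hn]

theorem uA_self (n : ℕ) : Haz.uA n n = 1 := by
  rw [Haz.uA, dif_neg (by omega), if_pos rfl]

theorem uA_var {n : ℕ} (i : Fin (n - 1)) : Haz.uA n (i + 1) = MvPolynomial.X i := by
  rw [Haz.uA, dif_pos ⟨Nat.succ_ne_zero _, by simp⟩]
  simp

theorem chi_Lz {R : Type*} [CommRing R] {n : ℕ} (φ : Haz.A n →+* R) {u : ℕ → R} (b t : ℕ → R)
    (hu : ∀ i, u i = φ (Haz.uA n i)) (k : ℕ) : chi u b t (Lz p k) = φ (Haz.ellInt p n k) := by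
  induction k using Nat.strong_induction_on with
  | _ k ih =>
    rcases k with _ | k
    · rw [Lz_zero, Haz.ellInt_zero, map_one, map_one]
    · rw [Lz_succ, Haz.ellInt_succ, map_sum, map_sum]
      refine sum_congr rfl fun i hi ↦ ?_
      have := mem_range.mp hi
      simp only [map_mul, map_pow, map_natCast, chi_u, hu, ih (k - i) (by omega)]

/-- The law of large height specialises to the law of height `n` below a degree. -/
theorem law_agree_spec {n M : ℕ} (hn : n ≠ 0) (hM : n < M) :
    Agree (p ^ M)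
      ((Haz.law p M).map (MvPolynomial.eval₂Hom (Int.castRingHom (Haz.A n))
        fun i : Fin (M - 1) ↦ Haz.uA n (i + 1))).toPowerSeries
      (Haz.law p n).toPowerSeries := by
  set Φ : Haz.A M →+* Haz.A n := MvPolynomial.eval₂Hom (Int.castRingHom (Haz.A n))
    fun i : Fin (M - 1) ↦ Haz.uA n (i + 1) with hΦ
  have := Haz.algK_charZero (n := n)
  have hΦu : ∀ i < M, Φ (Haz.uA M i) = Haz.uA n i := fun i hi ↦ by
    rcases i with _ | i
    · rw [uA_zero (by omega : M ≠ 0), uA_zero hn, map_zero]
    · rw [uA_var (⟨i, by omega⟩ : Fin (M - 1)), hΦ, MvPolynomial.eval₂Hom_X']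
  have hell : ∀ k < M, Φ (Haz.ellInt p M k) = Haz.ellInt p n k := by
    intro k
    induction k using Nat.strong_induction_on with
    | _ k ih =>
      intro hk
      rcases k with _ | k
      · rw [Haz.ellInt_zero, Haz.ellInt_zero, map_one]
      · rw [Haz.ellInt_succ, Haz.ellInt_succ, map_sum]
        refine sum_congr rfl fun i hi ↦ ?_
        have := mem_range.mp hi
        rw [map_mul, map_mul, map_pow, map_natCast, map_pow, hΦu _ (by omega),
          ih _ (by omega) (by omega)]
  have h := law_agree (p := p) ((algebraMap (Haz.A n) (Haz.K n)).comp Φ)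
    (algebraMap (Haz.A n) (Haz.K n)) (M := M) fun k hk ↦ by
      rw [Haz.ellAt, Haz.ellAt, RingHom.comp_apply, hell k hk]
  refine Agree.of_map (IsFractionRing.injective (Haz.A n) (Haz.K n)) ?_
  simpa only [FormalGroup.map_toPowerSeries, ← RingHom.comp_apply, ← MvPowerSeries.map_comp] using h

theorem chi_SU {K : Type*} [Field K] [CharZero K] {n : ℕ} (φ : Haz.A n →+* K) {u : ℕ → K}
    (b t : ℕ → K) (hu : ∀ i, u i = φ (Haz.uA n i)) (m : ℕ) :
    chi u b t (SU p m) =
      (p : K) ^ m * ∑ j ∈ range (m + 1), Haz.ellAt p φ (m - j) * t j ^ p ^ (m - j) := by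
  have hp0 : (p : K) ≠ 0 := Nat.cast_ne_zero.mpr hp.out.ne_zero
  rw [SU, map_sum, mul_sum]
  refine sum_congr rfl fun j hj ↦ ?_
  have hj' := mem_range.mp hj
  rw [zseq, if_pos (by omega)]
  simp only [map_mul, map_pow, map_natCast, chi_t, chi_Lz φ b t hu, Haz.ellAt]
  conv_rhs => rw [show m = j + (m - j) by omega, pow_add, Nat.add_sub_cancel_left]
  field_simp

theorem chi_wU {R : Type*} [CommRing R] (χ : U →+* R) (he : ∀ m, χ (eU p m) = 0) (m : ℕ) :
    χ (wU p m) = 0 := by
  rw [eU_spec, map_sum]
  refine sum_eq_zero fun k _ ↦ ?_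
  rw [zseq]
  split_ifs
  · rw [map_mul, map_pow χ (eU p k), he, zero_pow (pow_ne_zero _ hp.out.ne_zero), mul_zero]
  · exact map_zero _

/-- The equations make the logarithm of the formal sum proportional to the target's. -/
theorem log_identity {K : Type*} [Field K] [CharZero K] {n M : ℕ} (φ : Haz.A n →+* K)
    (ψ : Haz.A M →+* K) {u b t : ℕ → K} (hu : ∀ i, u i = φ (Haz.uA n i))
    (hb : ∀ i < M, b i = ψ (Haz.uA M i)) (he : ∀ m, chi u b t (eU p m) = 0) {m : ℕ} (hm : m < M) :
    ∑ j ∈ range (m + 1), Haz.ellAt p φ (m - j) * t j ^ p ^ (m - j) = t 0 * Haz.ellAt p ψ m := by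
  have hp0 : (p : K) ≠ 0 := Nat.cast_ne_zero.mpr hp.out.ne_zero
  suffices h : chi u b t (SU p m) = (p : K) ^ m * (t 0 * Haz.ellAt p ψ m) by
    rw [chi_SU φ b t hu] at h
    exact mul_left_cancel₀ (pow_ne_zero m hp0) h
  induction m using Nat.strong_induction_on with
  | _ m ih =>
    rcases m with _ | m
    · simp [SU, zseq_self, Haz.ellAt_zero]
    have h := chi_wU _ he (m + 1)
    rw [wU, if_neg (Nat.succ_ne_zero m), map_sub, map_mul, map_natCast, map_sum, sub_eq_zero] at h
    apply mul_left_cancel₀ hp0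
    rw [h]
    have hs := Haz.ellAt_succ (p := p) ψ m
    calc ∑ i ∈ range (m + 1), chi u b t
          ((p : U) ^ (i + 1) * SU p (m + 1 - (i + 1)) * bV (i + 1) ^ p ^ (m + 1 - (i + 1)))
        = ∑ i ∈ range (m + 1), (p : K) ^ (m + 1) * t 0 *
            (Haz.ellAt p ψ (m - i) * ψ (Haz.uA M (i + 1)) ^ p ^ (m - i)) := by
          refine sum_congr rfl fun i hi ↦ ?_
          have hi' := mem_range.mp hi
          rw [Nat.add_sub_add_right, map_mul, map_mul, map_pow, map_natCast, map_pow, chi_b,
            ih (m - i) (by omega) (by omega), hb _ (by omega),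
            show m + 1 = i + 1 + (m - i) by omega, pow_add]
          ring
      _ = _ := by rw [← mul_sum, ← hs]; ring

/-- Over a field of characteristic `p`. -/
theorem main_agree {k : Type*} [Field k] [CharP k p] {n h M : ℕ} (hn : n ≠ 0)
    (φ : Haz.A n →+* k) (t : ℕ → k) (ht : t 0 ≠ 0)
    (he : ∀ m, chi (fun i ↦ zeroSpec h k (Haz.uA h i)) (fun i ↦ φ (Haz.uA n i)) t (eU p m) = 0)
    (hM : n < M) :
    Agree (p ^ M)
      (PowerSeries.subst ((Haz.law p n).map φ).toPowerSeries
        (theta p (honda p h k).toPowerSeries t M : PowerSeries k))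
      (MvPowerSeries.subst
        ![PowerSeries.subst (X (0 : Fin 2)) (theta p (honda p h k).toPowerSeries t M : PowerSeries k),
          PowerSeries.subst (X (1 : Fin 2)) (theta p (honda p h k).toPowerSeries t M : PowerSeries k)]
        (honda p h k).toPowerSeries) := by
  -- the lift
  set ρ : WittVector p k →+* k := WittVector.constantCoeff
  set T : ℕ → WittVector p k := fun j ↦ WittVector.teichmuller p (t j) with hTdef
  have hρT : ∀ j, ρ (T j) = t j := fun j ↦ WittVector.teichmuller_coeff_zero p (t j)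
  set w : WittVector p k := WittVector.teichmuller p (t 0)⁻¹
  have hw : T 0 * w = 1 := by rw [hTdef, ← map_mul, mul_inv_cancel₀ ht, map_one]
  set u : ℕ → WittVector p k := fun i ↦ zeroSpec h _ (Haz.uA h i) with hudef
  set B : ℕ → WittVector p k := recSeq fun m v ↦ w * chi u v T (eU p m) with hBdef
  have hB : ∀ m, B m = w * chi u (trunc m B) T (eU p m) := fun m ↦ recSeq_eq _ m
  have hB0 : B 0 = 0 := by rw [hB, eU_zero, map_zero, mul_zero]
  have heW : ∀ m, chi u B T (eU p m) = 0 := by
    intro m
    rcases eq_or_ne m 0 with rfl | hm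
    · rw [eU_zero, map_zero]
    · rw [eU_killB p hm, map_sub, chi_killB, map_mul, chi_t, chi_b, hB m, ← mul_assoc, hw, one_mul,
        sub_self]
  have hρu : ∀ i, ρ (u i) = zeroSpec h k (Haz.uA h i) := fun i ↦ by
    rw [hudef, ← RingHom.comp_apply, map_zeroSpec]
  have hρB : ∀ m, ρ (B m) = φ (Haz.uA n m) := by
    intro m
    induction m using Nat.strong_induction_on with
    | _ m ih =>
      rcases eq_or_ne m 0 with rfl | hm
      · rw [hB0, uA_zero hn, map_zero, map_zero]
      have h1 := he m
      rw [eU_killB p hm, map_sub, chi_killB, map_mul, chi_t, chi_b, sub_eq_zero] at h1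
      rw [hB, map_mul, map_chi]
      simp only [hρu, hρT]
      have htr : (fun i ↦ ρ (trunc m B i)) = trunc m fun i ↦ φ (Haz.uA n i) := by
        funext i
        simp only [trunc]
        split_ifs with hi
        · exact ih i hi
        · exact map_zero _
      rw [htr, h1, ← mul_assoc, show ρ w = (t 0)⁻¹ from WittVector.teichmuller_coeff_zero p _,
        inv_mul_cancel₀ ht, one_mul]
  -- the target over Witt vectors
  set ψW : Haz.A M →+* WittVector p k :=
    MvPolynomial.eval₂Hom (Int.castRingHom _) fun i : Fin (M - 1) ↦ B (i + 1) with hψW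
  have hψu : ∀ i < M, B i = ψW (Haz.uA M i) := fun i hi ↦ by
    rcases i with _ | i
    · rw [uA_zero (by omega : M ≠ 0), hB0, map_zero]
    · rw [uA_var (⟨i, by omega⟩ : Fin (M - 1)), hψW, MvPolynomial.eval₂Hom_X']
  have hρψ : ρ.comp ψW = φ.comp (MvPolynomial.eval₂Hom (Int.castRingHom (Haz.A n))
      fun i : Fin (M - 1) ↦ Haz.uA n (i + 1)) := by
    apply MvPolynomial.ringHom_ext <;> intro <;> simp [hψW, hρB]
  -- logarithms
  have := wittVector_charZero p (k := k)
  let K := FractionRing (WittVector p k)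
  have hι : Function.Injective (algebraMap (WittVector p k) K) := IsFractionRing.injective _ _
  have : CharZero K := charZero_of_injective_algebraMap hι
  set ι := algebraMap (WittVector p k) K
  have heK : ∀ m, chi (fun i ↦ ι (u i)) (fun i ↦ ι (B i)) (fun i ↦ ι (T i)) (eU p m) = 0 :=
    fun m ↦ by rw [← map_chi, heW, map_zero]
  have hlog : Agree (p ^ M)
      (PowerSeries.subst (theta p ((Haz.law p h).map (zeroSpec h K)).toPowerSeries
        (fun i ↦ ι (T i)) M) (Haz.logAt p (zeroSpec h K)) : MvPowerSeries Unit K)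
      (ι (T 0) • Haz.logAt p (ι.comp ψW) : PowerSeries K) := by
    intro d hd
    rw [unit_degree] at hd
    conv_rhs => rw [← PowerSeries.coeff_def (R := K) (s := d) rfl]
    by_cases hk : ∃ m, d () = p ^ m
    · obtain ⟨m, hm⟩ := hk
      have hmM : m < M := (Nat.pow_lt_pow_iff_right hp.out.one_lt).mp (hm ▸ hd)
      rw [coeff_theta_log _ _ hmM d hm, hm, PowerSeries.coeff_smul, Haz.coeff_logAt, smul_eq_mul]
      refine log_identity (zeroSpec h K) (ι.comp ψW) (fun i ↦ ?_) (fun i hi ↦ ?_) heK hmM
      · rw [hudef, ← RingHom.comp_apply, map_zeroSpec]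
      · rw [hψu i hi, RingHom.comp_apply]
    · push Not at hk
      rw [coeff_theta_log_ne _ _ _ d hk, PowerSeries.coeff_smul, Haz.coeff_logAt_ne _ _ hk,
        smul_zero]
  have hK := hom_agree (zeroSpec h K) (ι.comp ψW) (ι (T 0))
    (constantCoeff_theta ((Haz.law p h).map (zeroSpec h K)).zero_constantCoeff _ M) hlog
  -- back to Witt vectors, down to `k`
  set θW : PowerSeries (WittVector p k) := theta p (honda p h (WittVector p k)).toPowerSeries T M with hθW
  have hθW0 : PowerSeries.constantCoeff θW = 0 :=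
    constantCoeff_theta (honda p h (WittVector p k)).zero_constantCoeff T M
  have hW : Agree (p ^ M)
      (PowerSeries.subst ((Haz.law p M).map ψW).toPowerSeries θW)
      (MvPowerSeries.subst ![PowerSeries.subst (X (0 : Fin 2)) θW,
        PowerSeries.subst (X (1 : Fin 2)) θW] (honda p h (WittVector p k)).toPowerSeries) := by
    refine Agree.of_map hι ?_
    rw [map_pair ι (constantCoeff_ps_subst (constantCoeff_X 0) hθW0)
        (constantCoeff_ps_subst (constantCoeff_X 1) hθW0),
      map_ps_subst ι ((Haz.law p M).map ψW).zero_constantCoeff,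
      map_ps_subst ι (constantCoeff_X (0 : Fin 2)), map_ps_subst ι (constantCoeff_X (1 : Fin 2)),
      MvPowerSeries.map_X, MvPowerSeries.map_X, map_honda, hθW,
      map_theta ι (honda p h (WittVector p k)).zero_constantCoeff, map_honda, FormalGroup.map_toPowerSeries,
      ← RingHom.comp_apply, ← MvPowerSeries.map_comp, ← FormalGroup.map_toPowerSeries]
    exact hK
  have hk := hW.map ρ
  rw [map_pair ρ (constantCoeff_ps_subst (constantCoeff_X 0) hθW0)
      (constantCoeff_ps_subst (constantCoeff_X 1) hθW0),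
    map_ps_subst ρ ((Haz.law p M).map ψW).zero_constantCoeff,
    map_ps_subst ρ (constantCoeff_X (0 : Fin 2)), map_ps_subst ρ (constantCoeff_X (1 : Fin 2)),
    MvPowerSeries.map_X, MvPowerSeries.map_X, map_honda, hθW,
    map_theta ρ (honda p h (WittVector p k)).zero_constantCoeff, map_honda, FormalGroup.map_toPowerSeries,
    ← RingHom.comp_apply, ← MvPowerSeries.map_comp, hρψ, MvPowerSeries.map_comp,
    RingHom.comp_apply, funext hρT] at hk
  refine Agree.trans ?_ hk
  have hl := (law_agree_spec (p := p) hn hM).map φ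
  rw [FormalGroup.map_toPowerSeries] at hl ⊢
  exact ps_subst_agree_arg (by simp [(Haz.law p n).zero_constantCoeff])
    (by rw [MvPowerSeries.constantCoeff_map]; simp [(Haz.law p M).zero_constantCoeff]) hl.symm _

end Vale.Agent.P217.Psi
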