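import Vale.Agent.P217.Psi.Congr
import Vale.Agent.P217.Psi.Equations
import Mathlib.RingTheory.WittVector.DiscreteValuationRing
import Mathlib.RingTheory.WittVector.Teichmuller

/-!
The formal sums of `t j X^(p^j)` are homomorphisms when the universal equations hold.
-/

noncomputable section

open MvPowerSeries Finset

namespace Vale.Agent.P217.Psi

variable {p : ℕ} [hp : Fact p.Prime]

section theta

variable {R S : Type*} [CommRing R] [CommRing S]

/-- `c X^(p^j)`. -/
def term (p : ℕ) (c : R) (j : ℕ) : MvPowerSeries Unit R :=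
  MvPowerSeries.C c * MvPowerSeries.X () ^ p ^ j

/-- The formal sum of `t j X^(p^j)`, `j < k`. -/
def theta (p : ℕ) (G : MvPowerSeries (Fin 2) R) (t : ℕ → R) : ℕ → MvPowerSeries Unit R
  | 0 => 0
  | k + 1 => MvPowerSeries.subst ![theta p G t k, term p (t k) k] G

omit hp in
theorem theta_zero (G : MvPowerSeries (Fin 2) R) (t : ℕ → R) : theta p G t 0 = 0 := rfl

omit hp in
theorem theta_succ (G : MvPowerSeries (Fin 2) R) (t : ℕ → R) (k : ℕ) :
    theta p G t (k + 1) = MvPowerSeries.subst ![theta p G t k, term p (t k) k] G := rfl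

theorem constantCoeff_term (c : R) (j : ℕ) : constantCoeff (term p c j) = 0 :=
  Haz.constantCoeff_monom c (pow_ne_zero j hp.out.ne_zero)

theorem constantCoeff_theta {G : MvPowerSeries (Fin 2) R} (hG : constantCoeff G = 0) (t : ℕ → R)
    (k : ℕ) : constantCoeff (theta p G t k) = 0 := by
  induction k with
  | zero => simp [theta_zero]
  | succ k ih => exact constantCoeff_subst_pair ih (constantCoeff_term _ _) hG

omit hp in
theorem map_term (e : R →+* S) (c : R) (j : ℕ) :
    MvPowerSeries.map e (term p c j) = term p (e c) j := by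
  rw [term, term, map_mul, map_pow, MvPowerSeries.map_C, MvPowerSeries.map_X]

theorem map_ps_subst {τ : Type*} (e : R →+* S) {a : MvPowerSeries τ R} (ha : constantCoeff a = 0)
    (f : PowerSeries R) : MvPowerSeries.map e (PowerSeries.subst a f) =
      PowerSeries.subst (MvPowerSeries.map e a) (MvPowerSeries.map e f : PowerSeries S) :=
  PowerSeries.map_subst (PowerSeries.HasSubst.of_constantCoeff_zero ha) f

omit hp in
theorem map_pair {τ : Type*} (e : R →+* S) {a b : MvPowerSeries τ R} (ha : constantCoeff a = 0)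
    (hb : constantCoeff b = 0) (G : MvPowerSeries (Fin 2) R) :
    MvPowerSeries.map e (MvPowerSeries.subst ![a, b] G) =
      MvPowerSeries.subst ![MvPowerSeries.map e a, MvPowerSeries.map e b]
        (MvPowerSeries.map e G) := by
  rw [MvPowerSeries.map_subst (hasSubst_of_constantCoeff_zero (Haz.constantCoeff_pair ha hb))]
  congr 1
  funext i; fin_cases i <;> rfl

theorem map_theta (e : R →+* S) {G : MvPowerSeries (Fin 2) R} (hG : constantCoeff G = 0)
    (t : ℕ → R) (k : ℕ) : MvPowerSeries.map e (theta p G t k) =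
      theta p (MvPowerSeries.map e G) (fun j ↦ e (t j)) k := by
  induction k with
  | zero => simp [theta_zero]
  | succ k ih =>
    rw [theta_succ, theta_succ, map_pair e (constantCoeff_theta hG t k) (constantCoeff_term _ _), ih,
      map_term]

theorem theta_agree_succ (F : FormalGroup R) (t : ℕ → R) (k : ℕ) :
    Agree (p ^ k) (theta p F.toPowerSeries t (k + 1)) (theta p F.toPowerSeries t k) := by
  have h0 := constantCoeff_theta (p := p) F.zero_constantCoeff t k
  have hb : Agree (p ^ k) (term p (t k) k) 0 := fun d hd ↦ by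
    classical
    rw [term, coeff_C_mul, coeff_X_pow, if_neg, mul_zero, map_zero]
    intro h
    rw [h, Finsupp.degree_single] at hd
    omega
  have h := subst_agree_arg (N := p ^ k) (b := ![theta p F.toPowerSeries t k, term p (t k) k])
    (b' := ![theta p F.toPowerSeries t k, 0])
    (Haz.constantCoeff_pair h0 (constantCoeff_term _ _))
    (Haz.constantCoeff_pair h0 (map_zero _))
    (Fin.forall_fin_two.mpr ⟨Agree.refl _ _, hb⟩) F.toPowerSeries
  rw [theta_succ]
  rwa [F.add_zero (PowerSeries.HasSubst.of_constantCoeff_zero h0)] at h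

theorem theta_agree (F : FormalGroup R) (t : ℕ → R) {k l : ℕ} (hkl : k ≤ l) :
    Agree (p ^ k) (theta p F.toPowerSeries t l) (theta p F.toPowerSeries t k) := by
  induction l, hkl using Nat.le_induction with
  | base => exact Agree.refl _ _
  | succ l hl ih =>
    exact ((theta_agree_succ F t l).mono (Nat.pow_le_pow_right hp.out.pos hl)).trans ih

/-- The limit of the formal sums. -/
def thetaLim (p : ℕ) (G : MvPowerSeries (Fin 2) R) (t : ℕ → R) : MvPowerSeries Unit R :=
  fun e ↦ coeff e (theta p G t (e () + 1))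

omit hp in
theorem coeff_thetaLim (G : MvPowerSeries (Fin 2) R) (t : ℕ → R) (e : Unit →₀ ℕ) :
    coeff e (thetaLim p G t) = coeff e (theta p G t (e () + 1)) := by
  rw [MvPowerSeries.coeff_apply (thetaLim p G t)]
  rfl

attribute [irreducible] theta thetaLim

theorem thetaLim_agree (F : FormalGroup R) (t : ℕ → R) (M : ℕ) :
    Agree (p ^ M) (thetaLim p F.toPowerSeries t) (theta p F.toPowerSeries t M) := by
  intro d hd
  rw [coeff_thetaLim]
  rcases Nat.le_total (d () + 1) M with hle | hle
  · refine ((theta_agree F t hle) d ?_).symm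
    rw [unit_degree]
    exact (Nat.lt_pow_self hp.out.one_lt).trans_le' (Nat.le_succ _)
  · exact theta_agree F t hle d hd

theorem map_thetaLim (e : R →+* S) {G : MvPowerSeries (Fin 2) R} (hG : constantCoeff G = 0)
    (t : ℕ → R) : MvPowerSeries.map e (thetaLim p G t) =
      thetaLim p (MvPowerSeries.map e G) fun j ↦ e (t j) := by
  refine MvPowerSeries.ext fun d ↦ ?_
  rw [coeff_thetaLim, ← map_theta e hG, MvPowerSeries.coeff_map, MvPowerSeries.coeff_map,
    coeff_thetaLim]

theorem constantCoeff_thetaLim {G : MvPowerSeries (Fin 2) R} (hG : constantCoeff G = 0)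
    (t : ℕ → R) : constantCoeff (thetaLim p G t) = 0 := by
  rw [← coeff_zero_eq_constantCoeff_apply]
  rw [coeff_thetaLim]
  rw [coeff_zero_eq_constantCoeff_apply, constantCoeff_theta hG]

theorem coeff_one_thetaLim (F : FormalGroup R) (t : ℕ → R) :
    PowerSeries.coeff 1 (thetaLim p F.toPowerSeries t : PowerSeries R) = t 0 := by
  rw [PowerSeries.coeff_def (s := Finsupp.single () 1) (by simp),
    thetaLim_agree F t 1 (Finsupp.single () 1) (by simpa using hp.out.one_lt), theta_succ, theta_zero,
    F.zero_add (PowerSeries.HasSubst.of_constantCoeff_zero (constantCoeff_term _ _)), term]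
  classical
  simp [coeff_C_mul, coeff_X_pow]

end theta

section logs

variable {n : ℕ} {K : Type*} [Field K] [CharZero K] (ψ : Haz.A n →+* K)

omit [CharZero K] in
theorem coeff_subst_term (c : K) (j : ℕ) (d : Unit →₀ ℕ) :
    coeff d (PowerSeries.subst (term p c j) (Haz.logAt p ψ)) =
      ∑ l ∈ range (d.degree + 1),
        if d () = p ^ (j + l) then Haz.ellAt p ψ l * c ^ p ^ l else 0 := by
  classical
  rw [FESetting.coeff_subst_eq_sum (p := p) _ (Haz.logAt_zero ψ) (Haz.coeff_logAt_ne ψ)
    (constantCoeff_term _ _) le_rfl]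
  refine sum_congr rfl fun l _ ↦ ?_
  rw [Haz.coeff_logAt, term, mul_pow, ← pow_mul, ← pow_add,
    ← map_pow (MvPowerSeries.C (σ := Unit) (R := K)), coeff_C_mul, coeff_X_pow]
  have hiff : d = Finsupp.single () (p ^ (j + l)) ↔ d () = p ^ (j + l) :=
    ⟨fun h ↦ by simp [h], fun h ↦ Finsupp.ext fun u ↦ by simp [h]⟩
  by_cases hd : d () = p ^ (j + l)
  · rw [if_pos hd, if_pos (hiff.mpr hd), mul_one]
  · rw [if_neg hd, if_neg (fun h ↦ hd (hiff.mp h)), mul_zero, mul_zero]

theorem subst_theta_log (t : ℕ → K) (k : ℕ) :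
    PowerSeries.subst (theta p ((Haz.law p n).map ψ).toPowerSeries t k) (Haz.logAt p ψ) =
      ∑ j ∈ range k, PowerSeries.subst (term p (t j) j) (Haz.logAt p ψ) := by
  induction k with
  | zero => simp [theta_zero, PowerSeries.subst_zero_of_constantCoeff_zero (Haz.logAt_zero ψ)]
  | succ k ih =>
    rw [theta_succ, Haz.logAt_law_subst ψ (Haz.constantCoeff_pair
      (constantCoeff_theta ((Haz.law p n).map ψ).zero_constantCoeff t k) (constantCoeff_term _ _)),
      sum_range_succ, ← ih]
    rfl

theorem coeff_theta_log (t : ℕ → K) {M : ℕ} {m : ℕ} (hm : m < M) (d : Unit →₀ ℕ)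
    (hd : d () = p ^ m) :
    coeff d (PowerSeries.subst (theta p ((Haz.law p n).map ψ).toPowerSeries t M) (Haz.logAt p ψ)) =
      ∑ j ∈ range (m + 1), Haz.ellAt p ψ (m - j) * t j ^ p ^ (m - j) := by
  rw [subst_theta_log, map_sum]
  have hinj : ∀ a, d () = p ^ a ↔ a = m := fun a ↦ by
    rw [hd, (Nat.pow_right_injective hp.out.two_le).eq_iff, eq_comm]
  rw [← sum_subset (range_mono (by omega : m + 1 ≤ M)) fun j _ hj ↦ by
    rw [coeff_subst_term]
    refine sum_eq_zero fun l _ ↦ if_neg ?_
    rw [hinj]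
    simp only [mem_range] at hj
    omega]
  refine sum_congr rfl fun j hj ↦ ?_
  have hj' := mem_range.mp hj
  rw [coeff_subst_term, sum_eq_single (m - j)]
  · rw [if_pos ((hinj _).mpr (by omega))]
  · intro l _ hl
    exact if_neg (by rw [hinj]; omega)
  · intro hn
    refine absurd (mem_range.mpr ?_) hn
    rw [unit_degree, hd]
    have := Nat.lt_pow_self (n := m) hp.out.one_lt
    omega

theorem coeff_theta_log_ne (t : ℕ → K) (M : ℕ) (d : Unit →₀ ℕ) (hd : ∀ a, d () ≠ p ^ a) :
    coeff d (PowerSeries.subst (theta p ((Haz.law p n).map ψ).toPowerSeries t M)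
      (Haz.logAt p ψ)) = 0 := by
  rw [subst_theta_log, map_sum]
  refine sum_eq_zero fun j _ ↦ ?_
  rw [coeff_subst_term]
  exact sum_eq_zero fun l _ ↦ if_neg (hd _)

omit [CharZero K] in
theorem logAt_agree {n' : ℕ} (ψ' : Haz.A n' →+* K) {M : ℕ}
    (h : ∀ k < M, Haz.ellAt p ψ k = Haz.ellAt p ψ' k) :
    Agree (p ^ M) (Haz.logAt p ψ : MvPowerSeries Unit K) (Haz.logAt p ψ') := by
  intro d hd
  rw [unit_degree] at hd
  rw [← PowerSeries.coeff_def (R := K) (s := d) rfl]
  by_cases hk : ∃ k, d () = p ^ k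
  · obtain ⟨k, hk⟩ := hk
    rw [hk, Haz.coeff_logAt, Haz.coeff_logAt]
    refine h k ?_
    rw [hk] at hd
    exact (Nat.pow_lt_pow_iff_right hp.out.one_lt).mp hd
  · push Not at hk
    rw [Haz.coeff_logAt_ne ψ _ hk, Haz.coeff_logAt_ne ψ' _ hk]

theorem law_agree {n' : ℕ} (ψ' : Haz.A n' →+* K) {M : ℕ}
    (h : ∀ k < M, Haz.ellAt p ψ k = Haz.ellAt p ψ' k) :
    Agree (p ^ M) ((Haz.law p n).map ψ).toPowerSeries ((Haz.law p n').map ψ').toPowerSeries := by
  have hl := logAt_agree (p := p) ψ ψ' h
  refine log_cancel (p := p) (Haz.logAt_zero ψ) (Haz.logAt_one ψ) (Haz.coeff_logAt_ne ψ)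
    ((Haz.law p n).map ψ).zero_constantCoeff ((Haz.law p n').map ψ').zero_constantCoeff ?_
  have h1 := ps_subst_agree_series ((Haz.law p n').map ψ').zero_constantCoeff hl
  refine Agree.trans ?_ h1.symm
  rw [Haz.logAt_law, Haz.logAt_law]
  exact (ps_subst_agree_series (constantCoeff_X 0) hl).add
    (ps_subst_agree_series (constantCoeff_X 1) hl)

/-- If the logarithm of `θ` is `c` times that of `F`, then `θ` is a homomorphism. -/
theorem hom_agree {n' : ℕ} (ψ' : Haz.A n' →+* K) (c : K) {θ : MvPowerSeries Unit K}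
    (hθ : constantCoeff θ = 0) {N : ℕ}
    (hlog : Agree N (PowerSeries.subst θ (Haz.logAt p ψ) : MvPowerSeries Unit K)
      (c • Haz.logAt p ψ' : PowerSeries K)) :
    Agree N (PowerSeries.subst ((Haz.law p n').map ψ').toPowerSeries (θ : PowerSeries K))
      (MvPowerSeries.subst ![PowerSeries.subst (X (0 : Fin 2)) (θ : PowerSeries K),
        PowerSeries.subst (X (1 : Fin 2)) (θ : PowerSeries K)]
          ((Haz.law p n).map ψ).toPowerSeries) := by
  have hθ' : PowerSeries.constantCoeff (θ : PowerSeries K) = 0 := hθ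
  have hF := ((Haz.law p n').map ψ').zero_constantCoeff
  have hX : ∀ i : Fin 2, constantCoeff (PowerSeries.subst (X i : MvPowerSeries (Fin 2) K)
      (θ : PowerSeries K)) = 0 := fun i ↦ constantCoeff_ps_subst (constantCoeff_X i) hθ'
  refine log_cancel (p := p) (Haz.logAt_zero ψ) (Haz.logAt_one ψ) (Haz.coeff_logAt_ne ψ)
    (constantCoeff_ps_subst hF hθ')
    (constantCoeff_subst_pair (hX 0) (hX 1) ((Haz.law p n).map ψ).zero_constantCoeff) ?_
  rw [Haz.logAt_law_subst ψ (Haz.constantCoeff_pair (hX 0) (hX 1)), ← ps_subst_subst hθ' hF]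
  simp only [Matrix.cons_val_zero, Matrix.cons_val_one]
  rw [← ps_subst_subst hθ' (constantCoeff_X (0 : Fin 2)),
    ← ps_subst_subst hθ' (constantCoeff_X (1 : Fin 2))]
  refine (ps_subst_agree_series hF hlog).trans (Agree.trans ?_
    ((ps_subst_agree_series (constantCoeff_X 0) hlog).add
      (ps_subst_agree_series (constantCoeff_X 1) hlog)).symm)
  rw [PowerSeries.subst_smul (PowerSeries.HasSubst.of_constantCoeff_zero hF),
    PowerSeries.subst_smul (PowerSeries.HasSubst.of_constantCoeff_zero (constantCoeff_X 0)),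
    PowerSeries.subst_smul (PowerSeries.HasSubst.of_constantCoeff_zero (constantCoeff_X 1)),
    Haz.logAt_law, smul_add]
  exact Agree.refl _ _

end logs

end Vale.Agent.P217.Psi
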